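import Vale.Agent.P287D.Top.Stm
import Vale.Agent.P287D.Defs

/-!
# The glue: the vanishing of the count and the count for a rational cubic
-/

noncomputable section

namespace Vale.Agent.P287D.Top

open P287T

/-- A birational datum in large discriminant gives two Fano fourfolds of one field with different
counts. -/
def CNT : Prop :=
  ∃ R : ℤ, ∀ (F : MvPolynomial (Fin 6) ℂ) (d : ℕ), Per.Sm F → Ex.Gen F d → R < d →
    P287Q.Cub.Bir F → ∃ (S : Cls) (K : Type) (_ : Field K) (_ : Algebra ℂ K) (Λ Λ' : BD K),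
      SCl d S ∧ FF K 4 ∧ Fano1 3 Λ ∧ Fano1 3 Λ' ∧ cnt S Λ Λ' ≠ cnt S Λ' Λ

theorem noBir_of (h : SARK) (c : CNT) : NoBir := by
  obtain ⟨d₀, h⟩ := h
  obtain ⟨R, c⟩ := c
  refine ⟨max R d₀, fun F d a b l => ⟨fun e => ?_⟩⟩
  have l0 : (d₀ : ℤ) < d := (le_max_right _ _).trans_lt l
  obtain ⟨m, rfl⟩ := Int.eq_ofNat_of_zero_le ((Int.natCast_nonneg d₀).trans l0.le)
  obtain ⟨S, K, _, _, Λ, Λ', s, f, x, y, n⟩ := c F m a b ((le_max_left _ _).trans_lt l) e
  exact n (h m (by exact_mod_cast l0.le) S s K f Λ Λ' x y)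

end Vale.Agent.P287D.Top
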