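import Vale.Agent.P287D.Api.Fld
import Vale.Agent.P287D.Dp.Ax
import Vale.Agent.P287D.Oe.All
import Vale.Agent.P287D.Sc.All
import Vale.Agent.P287D.Sc.Xa
import Vale.Agent.P287D.Sm.Nh
import Vale.Agent.P287D.Pg.Trm
import Vale.Agent.P287D.En.Su
import Vale.Agent.P287D.Lc.Sig
import Vale.Agent.P287D.Lc.Int
import Vale.Agent.P287D.Tk.Flag
import Vale.Agent.P287D.Tk.Ont
import Vale.Agent.P287D.Tj.Set
import Vale.Agent.P287D.Tg.Glue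
import Vale.Agent.P287D.Tg.Add
import Vale.Agent.P287D.Tg.Dich
import Vale.Agent.P287D.Tg.K1
import Vale.Agent.P287D.Tg.Sb0
import Vale.Agent.P287D.Tg.Sb1
import Vale.Agent.P287D.Tg.Tv
import Vale.Agent.P287D.Tg.Up
import Vale.Agent.P287D.Ti.One
import Vale.Agent.P287D.Hd.Top
import Vale.Agent.P287D.Hd.C3
import Vale.Agent.P287D.Hd.Deg
import Vale.Agent.P287D.Hd.Dsc
import Vale.Agent.P287D.Hd.Exn
import Vale.Agent.P287D.Hd.Fb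
import Vale.Agent.P287D.Hd.Ft3
import Vale.Agent.P287D.Hd.Grs
import Vale.Agent.P287D.Hd.Pert
import Vale.Agent.P287D.Hd.R6
import Vale.Agent.P287D.Hd.Test
import Vale.Agent.P287D.Rm.Abh
import Vale.Agent.P287D.Rm.Gal
import Vale.Agent.P287D.Fg.Nf
import Vale.Agent.P287D.Fm.Ba
import Vale.Agent.P287D.Fm.Bb
import Vale.Agent.P287D.Fm.Bc
import Vale.Agent.P287D.Fm.Dn
import Vale.Agent.P287D.Fm.Ds
import Vale.Agent.P287D.Fm.Orb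
import Vale.Agent.P287D.Fm.Lin
import Vale.Agent.P287D.Fm.M5
import Vale.Agent.P287D.Fm.H6
import Vale.Agent.P287D.Fg.Fu
import Vale.Agent.P287D.Tg.T2
import Vale.Agent.P287D.Pn.Pen
import Vale.Agent.P287D.Vt.Top
import Vale.Agent.P287D.C3.Vq
import Vale.Agent.P287D.D2.Two
import Vale.Agent.P287D.Gm.Gen
import Vale.Agent.P287D.Sl.All
import Vale.Agent.P287D.Tg.Mov
import Vale.Agent.P287D.Hd.R4
import Vale.Agent.P287D.Hd.R5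
import Vale.Agent.P287D.F1.Fan
import Vale.Agent.P287D.Ru.Tri
import Vale.Agent.P287D.Tk.Stq
import Vale.Agent.P287D.C3.One
import Vale.Agent.P287D.Nc.Top2
import Vale.Agent.P287D.Nc.Gpb
import Vale.Agent.P287D.Nc.Net
import Vale.Agent.P287D.Nc.Ptx
import Vale.Agent.P287D.Nc.Bij
import Vale.Agent.P287D.Nc.Pla
import Vale.Agent.P287D.Nc.Typ
import Vale.Agent.P287D.Nc.Rul
import Vale.Agent.P287D.Nc.Inv
import Vale.Agent.P287D.Nc.Res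
import Vale.Agent.P287D.Tw.Map
import Vale.Agent.P287D.Tw.Mapp
import Vale.Agent.P287D.Br.Gp
import Vale.Agent.P287D.F1.Bas
import Vale.Agent.P287D.K3.End
import Vale.Agent.P287D.Fs.Pgr

/-!
# P287D: the assembly
-/

namespace Vale.Agent.P287D.Top

theorem net : Nc.NET :=
  Nc.net_of Nc.ptx Nc.gpd Nc.gpb Tw.map Tw.mapp (Nc.bij_of Nc.ptx) (Nc.pla_of Br.gp0 Br.dim)
    (Nc.plb_of Br.dim Nc.ptx) (Nc.typ_of (Nc.rul_of Br.dim Nc.ptx))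
    (Nc.inv_of Tw.map Nc.gpb Br.dim) (Nc.res_of Tw.map Nc.ptx Br.dim)

theorem cnt : Nc.CNT' :=
  Nc.cnt_of' Br.gp0 Br.dim Nc.gpd (F1.onb res' Api.fld Api.vol Api.pb) net F1.fan K3.k3e Fs.pgr

theorem trm : Mm.TRM := Pg.trm_of Api.gen Api.fld Sh.ts

theorem klt : Tg.KLT :=
  Tg.klt_of Api.fld Api.pb Tg.hor (Tg.tv_of Tg.hor) Tg.mov Tg.sb0 (Tg.sb1_of rul Tg.hor Tg.rk1)
    (Tg.k1_of Tg.rk1 (Tg.tv_of Tg.hor)) Tg.sl

theorem vol3 : Sc.VOL3 :=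
  Tg.vol3_of (Tg.vb_of Tg.upv Tg.add Tg.one klt (Ti.t1_of Tg.upx) le_rfl)

theorem dich : Sc.DICH :=
  Tg.dich_of In.hy Api.neg (Tg.di0_of Api.fld Tg.upv Tg.upc Tg.add Tg.one klt
    (Ti.t1_of Tg.upx) Tg.t2) Pn.pen

theorem loc : LOC :=
  Lc.loc_of Api.mod Api.ffs (Lc.sig_of Api.sec (Lc.intg_of In.hy Api.mod Api.fld trm))
    (Tk.trk_of Tk.mon (Tj.seti_of Api.run) Tk.sta Tk.Hg.stp) (Oe.ends_all tri trm En.vol2 vol3)

theorem xa : Sc.XA := Sc.xa_of trm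

theorem xq : Sc.XQ := Sc.xq_of Api.fld trm xa

theorem nh : Sc.NH := Sm.nh_of trm

theorem sc0 : SC0 := Sc.sc0' trm xa xq nh dich

theorem p5 : Fm.P5 := Fm.M5.p5 Dp.ax

theorem fma : Hd.FMA :=
  Fm.fma_of (Fm.ga_of Dp.ax p5 (Fm.H6.p6 Dp.ax) (Fm.upa Dp.ax) (Fm.orb Dp.ax) (Fm.ba Dp.ax))
    Fm.ds Fm.dt Fm.du Fm.d5 Fm.d6

theorem fmb : Hd.FMB :=
  Fm.fmb_of (Fm.gb_of p5 (Fm.bb Dp.ax) (Fm.bc Dp.ax)) Fm.ds Fm.dt Fm.du Fm.d5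

theorem r6 : Hd.R6 :=
  Hd.r6 (Hd.c2 Fg.fu Fg.fg Hd.deg (Hd.fb_of rul) Hd.ft3) (Hd.dsc_of Hd.gal Hd.abh) Hd.abh Hd.grs

theorem r4 : Hd.R4 :=
  Hd.r4 (Hd.c3 Fg.fu Fg.fg Hd.deg (Hd.fb_of rul) Hd.ft3) (Hd.dsc_of Hd.gal Hd.abh) Hd.abh Hd.gal
    Hd.grs

theorem r5 : Hd.R5 :=
  Hd.r5' (Hd.c3 Fg.fu Fg.fg Hd.deg (Hd.fb_of rul) Hd.ft3) (Hd.dsc_of Hd.gal Hd.abh) Hd.abh Hd.grs

theorem exn : Hd.EXN :=
  Hd.exn Api.fld Hd.pert (Hd.test Api.ffs Api.mod res' Api.int Api.neg Api.fld)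

theorem cb3 : CB3 := C3.cb3_of (C3.one_of trm) (D2.two_of trm C3.vq)

theorem lnk : LNK' :=
  lnk_of' Api.dm loc sc0 (Sc.sc1 trm vol3) Vt.vrt cb3 Dp.sym Dp.dp'
    (Hd.chg_of Api.pb Api.fld fmb r5 r4 r6 exn En.end')
    (Hd.hd2_of Api.pb Api.fld fma r5 r4 r6 exn En.end')
    (Hd.hd3_of Api.pb Api.fld fmb r5 r4 r6 exn En.end')

theorem noBir : NoBir := Nc.noBir_of' (Api.sark lnk) cnt

/-- cubic fourfolds with `A(X)` of rank two and large discriminant are irrational -/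
theorem noRat : NoRat := noRat_of noBir

end Vale.Agent.P287D.Top
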