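import Vale.Agent.P287D.Ex.Gen

/-!
# The disproof from irrationality in large discriminant
-/

universe w w'

namespace Vale.Agent.P287D.Top

open P287T

/-- Cubic fourfolds with `A(X)` of rank two and large discriminant are irrational. -/
def NoRat : Prop :=
  ∃ R : ℤ, ∀ (F : MvPolynomial (Fin 6) ℂ) (d : ℤ), Per.Sm F → Ex.Gen F d → R < d →
    ¬ Stm.IsRationalForm F

/-- The same for the birational datum of the first phase. -/
def NoBir : Prop :=
  ∃ R : ℤ, ∀ (F : MvPolynomial (Fin 6) ℂ) (d : ℤ), Per.Sm F → Ex.Gen F d → R < d →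
    IsEmpty (P287Q.Cub.Bir F)

theorem noRat_of (h : NoBir) : NoRat :=
  let ⟨R, h⟩ := h
  ⟨R, fun F d a b c r => let ⟨e⟩ := P287Q.Cub.rat a.hom r; (h F d a b c).false e⟩

theorem final (h : NoRat) :
    (∀ (F : MvPolynomial (Fin 6) ℂ) [Fact (F.IsHomogeneous 3)], Stm.IsSmoothForm F →
      Stm.IsRationalForm F → Stm.KuK3.{w, w'} F) ∧
    ∃ (F : MvPolynomial (Fin 6) ℂ) (_ : Fact (F.IsHomogeneous 3)), Stm.IsSmoothForm F ∧
      Stm.KuK3.{w, w'} F ∧ ¬ Stm.IsRationalForm F :=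
  let ⟨R, h⟩ := h
  let ⟨F, i, a, b, d, c, e⟩ := Ex.exists_gen.{w, w'} R
  ⟨fun F _ => P287T.Top.main F, F, i, a.sm, b, h F d a e c⟩

end Vale.Agent.P287D.Top
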